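import Mathlib

set_option autoImplicit false

/-!
# P181, TR: the heads, pure numbers

`r` groups of heads with sizes in disjoint blocks of `(a / 2, a]` and prescribed total sizes.
-/

namespace Vale.Agent.P181.TR.H119

open Finset

/-- The sum of a balanced family. -/
theorem sum_bal (n l m : ℕ) (hn : 0 < n) :
    ∑ i : Fin n, (l + m / n + if (i : ℕ) < m % n then 1 else 0) = n * l + m := by
  rw [Finset.sum_add_distrib, Finset.sum_const, Finset.card_univ, Fintype.card_fin, smul_eq_mul]
  have h1 : ∑ i : Fin n, (if (i : ℕ) < m % n then 1 else 0) = m % n := by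
    rw [Finset.sum_boole, Nat.cast_id, Fin.card_filter_val_lt, min_eq_right (Nat.mod_lt m hn).le]
  rw [h1]
  have h2 := Nat.div_add_mod m n
  rw [mul_add]
  omega

open scoped Classical in
/-- The heads. -/
theorem heads (a r : ℕ) (y : Fin r → ℕ) (hr : 1 ≤ r) (ha : 8 * r ≤ a)
    (hy : ∀ c, 8 * r * a ≤ y c) :
    ∃ (H : ℕ) (p : Fin H → ℕ) (g : Fin H → Fin r), (∀ h, a < 2 * p h ∧ p h ≤ a) ∧
      (∀ h h', p h = p h' → g h = g h') ∧
      (∀ c, ∑ h ∈ Finset.univ.filter (fun h => g h = c), p h = y c) ∧ H * a ≤ 2 * ∑ c, y c := by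
  have ha0 : 0 < a := by omega
  -- the width of the blocks
  obtain ⟨D, hD⟩ : ∃ D, D = a / 2 / r := ⟨_, rfl⟩
  have hDr : r * D ≤ a / 2 := by rw [hD]; exact Nat.mul_div_le _ _
  have hm1 : 1 ≤ a / (8 * r) := by
    rw [Nat.le_div_iff_mul_le (by omega)]; omega
  have hDm : 4 * (a / (8 * r)) ≤ D := by
    rw [hD, Nat.le_div_iff_mul_le (by omega)]
    have h1 := Nat.mul_div_le a (8 * r)
    have h2 : 4 * (a / (8 * r)) * r * 2 = 8 * r * (a / (8 * r)) := by ring
    omega
  -- the least size of the group `c`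
  let lo : Fin r → ℕ := fun c => a / 2 + 1 + c * D
  have hlo : ∀ c, lo c + D ≤ a + 1 := by
    intro c
    have h1 : ((c : ℕ) + 1) * D ≤ r * D := Nat.mul_le_mul_right _ c.2
    have h2 : ((c : ℕ) + 1) * D = c * D + D := by ring
    have h3 : lo c = a / 2 + 1 + c * D := rfl
    omega
  have hlo0 : ∀ c, a / 2 + 1 ≤ lo c := fun c => Nat.le_add_right _ _
  have hlopos : ∀ c, 0 < lo c := fun c => by have := hlo0 c; omega
  let n : Fin r → ℕ := fun c => y c / lo c
  have hn8 : ∀ c, 8 * r ≤ n c := by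
    intro c
    show 8 * r ≤ y c / lo c
    rw [Nat.le_div_iff_mul_le (hlopos c)]
    refine le_trans (Nat.mul_le_mul_left _ ?_) (hy c)
    have := hlo c
    omega
  have hn0 : ∀ c, 0 < n c := fun c => by have := hn8 c; omega
  let q : (Σ c : Fin r, Fin (n c)) → ℕ := fun z =>
    lo z.1 + (y z.1 % lo z.1) / n z.1 + if (z.2 : ℕ) < (y z.1 % lo z.1) % n z.1 then 1 else 0
  have hq1 : ∀ z, lo z.1 ≤ q z := by
    intro z
    exact le_trans (Nat.le_add_right _ _) (Nat.le_add_right _ _)
  have hq2 : ∀ z, q z + 1 ≤ lo z.1 + D := by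
    intro z
    have h1 : (y z.1 % lo z.1) / n z.1 ≤ a / (8 * r) := by
      refine le_trans (Nat.div_le_div_left (hn8 z.1) (by omega)) (Nat.div_le_div_right ?_)
      have h2 := Nat.mod_lt (y z.1) (hlopos z.1)
      have h3 := hlo z.1
      omega
    have h2 : q z ≤ lo z.1 + (y z.1 % lo z.1) / n z.1 + 1 := by
      show lo z.1 + (y z.1 % lo z.1) / n z.1 + _ ≤ _
      split_ifs <;> omega
    omega
  have hqsum : ∀ c, ∑ i : Fin (n c), q ⟨c, i⟩ = y c := by
    intro c
    have h1 := sum_bal (n c) (lo c) (y c % lo c) (hn0 c)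
    have h2 : n c * lo c + y c % lo c = y c := by
      have := Nat.div_add_mod (y c) (lo c)
      rw [mul_comm] at this
      exact this
    rw [h2] at h1
    exact h1
  have hinj : ∀ z z', q z = q z' → z.1 = z'.1 := by
    intro z z' h
    have h1 := hq1 z
    have h2 := hq2 z
    have h1' := hq1 z'
    have h2' := hq2 z'
    have key : ∀ c c' : Fin r, (c : ℕ) < c' → lo c + D ≤ lo c' := by
      intro c c' hc
      have h3 : ((c : ℕ) + 1) * D ≤ c' * D := Nat.mul_le_mul_right _ hc
      have h4 : ((c : ℕ) + 1) * D = c * D + D := by ring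
      show a / 2 + 1 + (c : ℕ) * D + D ≤ a / 2 + 1 + (c' : ℕ) * D
      omega
    rcases lt_trichotomy (z.1 : ℕ) z'.1 with h5 | h5 | h5
    · have := key _ _ h5; omega
    · exact Fin.ext h5
    · have := key _ _ h5; omega
  let e : (Σ c : Fin r, Fin (n c)) ≃ Fin (Fintype.card (Σ c : Fin r, Fin (n c))) :=
    Fintype.equivFin _
  have hgsum : ∀ c, ∑ h ∈ Finset.univ.filter (fun h => (e.symm h).1 = c), q (e.symm h) = y c := by
    intro c
    rw [Finset.sum_filter, ← e.sum_comp]
    simp only [Equiv.symm_apply_apply]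
    rw [Fintype.sum_sigma]
    rw [Finset.sum_eq_single c]
    · simp only [if_true]
      exact hqsum c
    · intro c' _ hc'
      simp [hc']
    · intro h; exact absurd (Finset.mem_univ _) h
  refine ⟨Fintype.card (Σ c : Fin r, Fin (n c)), fun h => q (e.symm h), fun h => (e.symm h).1,
    ?_, ?_, hgsum, ?_⟩
  · intro h
    have h1 := hq1 (e.symm h)
    have h2 := hq2 (e.symm h)
    have h3 := hlo (e.symm h).1
    have h4 := hlo0 (e.symm h).1
    show a < 2 * q (e.symm h) ∧ q (e.symm h) ≤ a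
    exact ⟨by omega, by omega⟩
  · intro h h' hh
    exact hinj _ _ hh
  · have h1 : ∑ c, y c = ∑ h, q (e.symm h) := by
      rw [e.symm.sum_comp q, Fintype.sum_sigma]
      exact Finset.sum_congr rfl fun c _ => (hqsum c).symm
    rw [h1, Finset.mul_sum]
    calc Fintype.card (Σ c : Fin r, Fin (n c)) * a
        = ∑ _h : Fin (Fintype.card (Σ c : Fin r, Fin (n c))), a := by
          rw [Finset.sum_const, Finset.card_univ, Fintype.card_fin, smul_eq_mul]
      _ ≤ _ := by
          refine Finset.sum_le_sum fun h _ => ?_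
          have h1 := hq1 (e.symm h)
          have h4 := hlo0 (e.symm h).1
          omega

end Vale.Agent.P181.TR.H119
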