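import Vale.Agent.P181.TR.Defs
import Vale.Agent.P181.TR.H119.Heads

set_option autoImplicit false

/-!
# P181, TR: (R3)
-/

namespace Vale.Agent.P181.TR.H119

open Vale.Agent.P181.TR

theorem headR : HeadR := by
  intro a r U P ha hU hP
  rcases Nat.eq_zero_or_pos r with h0 | h0
  · subst h0
    exact ⟨0, fun h => h.elim0, fun h => h.elim0, fun h => h.elim0, fun h => h.elim0,
      fun h => h.elim0, fun l => l.elim0, by simp⟩
  · obtain ⟨H, p, g, h1, h2, h3, h4⟩ := heads a r P h0 (by omega)
      (fun c => le_trans (Nat.mul_le_mul_right _ (by omega)) (hP c))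
    refine ⟨H, p, g, fun h => ?_, fun h => (h1 h).2, h2, fun l => ?_, ?_⟩
    · have := (h1 h).1
      omega
    · rw [← h3 l]
    · rw [mul_comm]; exact h4

end Vale.Agent.P181.TR.H119
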